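import Vale.Agent.P112.H967.LqS
import Vale.Agent.P112.T580.Amp3

/-!
# [PRIM]: vertical primitives of the tree functions

`stPrim : 1 ≤ M → StPrim κ` (literal Prop of `H646/GainDefs`): the primitive is (minus) the tree
function of the kernel with one derivative less.
-/

open MeasureTheory Set
open scoped ENNReal

noncomputable section

namespace Vale.Agent.P112.H919

open Vale.Agent.P112.T Vale.Agent.P112.H646.Gain

/-- the kernel with one derivative less -/
def dn {M : ℕ} (κ : Ker (M + 1)) : Ker M :=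
  ⟨κ.K, κ.Φ, κ.smoothK, κ.oddK, κ.suppK, κ.smoothΦ, κ.suppΦ⟩

theorem up_dn {M : ℕ} (κ : Ker (M + 1)) : T580.up (dn κ) = κ := rfl

theorem stPrim_succ {M : ℕ} (κ : Ker (M + 1)) : StPrim κ := by
  obtain ⟨C, c, hC, h⟩ := HL.stLq (dn κ)
  refine ⟨64 * C ^ 2, 2 * c, by nlinarith, ?_⟩
  intro u hu n g hg hg1 S Q hS ι _ s E hT hE
  -- boundedness
  have hb : ∀ i, ∃ B : ℝ, ∀ z, |(dn κ).FS u g (E i) n z| ≤ B := fun i =>
    ((dn κ).FS_nice hu hg (hT.meas i) n).bdd
  choose B hB using hb
  refine ⟨fun i w => -tg (dn κ) u g n s E i w, fun i => ?_, ⟨∑ i, |B i|, fun i z => ?_⟩, ?_, ?_⟩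
  · have hm : Measurable fun ζ => (dn κ).FS u g (E i) n ζ :=
      ((dn κ).FS_nice hu hg (hT.meas i) n).meas
    unfold tg
    exact (Complex.measurable_ofReal.comp (hm.comp
      (by fun_prop : Measurable fun w : ℝ × ℝ => (w.1, w.2 + s i * w.1)))).neg
  · unfold tg
    rw [norm_neg, Complex.norm_real, Real.norm_eq_abs]
    refine (hB i _).trans ((le_abs_self _).trans ?_)
    exact Finset.single_le_sum (f := fun i => |B i|) (fun i _ => abs_nonneg _) (Finset.mem_univ i)
  · intro i x t
    have h1 := T580.hasDerivAt_FS (dn κ) hu hg (hT.meas i) n x (t + s i * x)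
    have h2 : HasDerivAt (fun t : ℝ => t + s i * x) 1 t := (hasDerivAt_id t).add_const _
    have h3 := (h1.comp t h2).neg.ofReal_comp
    refine (h3.congr_deriv ?_).congr_of_eventuallyEq ?_
    · unfold tg
      rw [up_dn]
      simp
    · refine Filter.Eventually.of_forall fun t => ?_
      unfold tg
      simp
  · have h4 := h u hu n g hg hg1 S Q hS ι s E hT hE 2 le_rfl
    refine le_trans (le_of_eq ?_) (h4.trans (le_of_eq ?_))
    · refine Finset.sum_congr rfl fun i _ => lintegral_congr fun w => ?_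
      rw [enorm_neg, ENNReal.rpow_two]
    · congr 2
      rw [Real.rpow_two]
      ring

/-- **[PRIM]** -/
theorem stPrim {M : ℕ} (hM : 1 ≤ M) (κ : Ker M) : StPrim κ := by
  obtain ⟨M, rfl⟩ : ∃ M', M = M' + 1 := ⟨M - 1, by omega⟩
  exact stPrim_succ κ

end Vale.Agent.P112.H919
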