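import Vale.Agent.P112.H22.ArcDefs
import Vale.Agent.P112.H597.Sparse3
import Vale.Agent.P112.H724.FD2

/-!
# [GAIN-ARC], (ARC-1): the counting function `StCount`

Tops of `StFD2` (H724), system of dense tubes (H22 `topSys`), candidates (H22 `cand`), sparse
Kakeya theorem for wide intervals (H597 `sparse3`).
-/

open MeasureTheory Set
open scoped ENNReal

noncomputable section

namespace Vale.Agent.P112.H919

open Vale.Agent.P112.T Vale.Agent.P112.F30 Vale.Agent.P112.R2 Vale.Agent.P112.H310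
open Vale.Agent.P112.H295 Vale.Agent.P112.H22.TopSys Vale.Agent.P112.H22.Cand
open Vale.Agent.P112.H22.ArcG

/-- the numerical constant of the sparse Kakeya theorem, `B = 3`, `A = 5` -/
def K0 : ℝ := 262272 * 8192 * (3 + 2 + 32 * 5) ^ 3

theorem K0_pos : 0 < K0 := by unfold K0; positivity

/-- the counting function, constants explicit -/
theorem count_aux {u : ℝ × ℝ → ℝ} (hu : Measurable u) {ε : ℝ} (hε0 : 0 ≤ ε) (hε1 : ε ≤ 1 / 256)
    (hLip : ∀ x y y', |u (x, y) - u (x, y')| ≤ ε * |y - y'|) {E0 : Set (ℝ × ℝ)}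
    (hE : MeasurableSet E0) {n ν : ℕ} {κ : Type} [Fintype κ] {M : Tops κ}
    (hM : HasTile u E0 ν M) {R A w Q H0 : ℝ} {N0 : ℕ} (hR : 1 ≤ R) (hA : 1 ≤ A)
    (hTop : ∀ j, ∀ z ∈ Pd u E0 4 n ν j, ∃ m, Ab u M R z j m) {F : Tr}
    (hok : F.Ok u (Pd u E0 4 n ν) A w) (hsep : F.SepP Q (w + Q)) (hH0 : 1 ≤ H0)
    (hH1 : R + (R + A) * (1 / 2) ≤ H0) (_hQ0 : 8 * H0 ≤ Q) (hQ1 : 4 * (5 * H0) + 2 * (R + A) < Q)
    (hN : 1 ≤ N0) :
    ∃ Φ : ℝ × ℝ → ℝ≥0∞, Measurable Φ ∧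
      ∫⁻ z, Φ z ^ 2 ≤ ENNReal.ofReal (K0 / ((1 / 2) ^ (ν + 1)) ^ 2 * (2 * H0) *
        (2 * (2 * (R + (R + A) * (1 / 2)) + 3) / N0)) *
          ENNReal.ofReal (∑ m, (1 / 2) ^ M.j m) ∧
      ∀ z, ∀ P : Finset F.ι, Occ F H0 N0 z P → (P.card : ℝ≥0∞) ≤ Φ z := by
  classical
  set K : ℝ := 2 * (R + (R + A) * (1 / 2)) + 3 with hK
  have hK0 : 0 < K := by rw [hK]; linarith
  have hN' : (0 : ℝ) < N0 := by exact_mod_cast hN
  set T : ℕ := ⌈(N0 : ℝ) / K⌉₊ with hT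
  have hT1 : 1 ≤ T := Nat.one_le_ceil_iff.2 (by positivity)
  have hTle : (N0 : ℝ) / K ≤ T := Nat.le_ceil _
  set p : ℕ := (T - 1) / 2 with hp
  have hp1 : 2 * p + 1 ≤ T := by omega
  have hp2 : T ≤ 2 * (p + 1) := by omega
  have hpT : (N0 : ℝ) / (2 * K) ≤ (p : ℝ) + 1 := by
    have h1 : (T : ℝ) ≤ 2 * ((p : ℝ) + 1) := by exact_mod_cast hp2
    have h2 : (N0 : ℝ) / (2 * K) = (N0 : ℝ) / K / 2 := by field_simp
    rw [h2]; linarith
  set S := topSys u hu hε0 (by linarith) hLip hE M hM hH0 with hS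
  obtain ⟨Φ, hΦm, hΦ0, hΦi, hΦI, hΦc⟩ := H597.sparse3 S (show S.ε ≤ 1 / 256 from hε1)
    (B := 3) (by norm_num) p
  refine ⟨fun z => ENNReal.ofReal (Φ z), hΦm.ennreal_ofReal, ?_, ?_⟩
  · have h1 : ∫⁻ z, ENNReal.ofReal (Φ z) ^ 2 = ENNReal.ofReal (∫ z, Φ z ^ 2) := by
      rw [ofReal_integral_eq_lintegral_ofReal hΦi
        (Filter.Eventually.of_forall fun z => sq_nonneg _)]
      refine lintegral_congr fun z => ?_
      rw [ENNReal.ofReal_pow (hΦ0 z)]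
    rw [h1, ← ENNReal.ofReal_mul (by have := K0_pos; positivity)]
    refine ENNReal.ofReal_le_ofReal (hΦI.trans ?_)
    have hR' : ∑ m, volume.real (S.R m) = 2 * H0 * ∑ m, (1 / 2 : ℝ) ^ M.j m := by
      rw [Finset.mul_sum]
      refine Finset.sum_congr rfl fun m _ => ?_
      rw [S.vr_R m]
      unfold SysV.l
      show (2 : ℝ)⁻¹ ^ M.j m * (2 * H0) = _
      rw [one_div]; ring
    rw [hR']
    set σ := ∑ m, (1 / 2 : ℝ) ^ M.j m with hσ
    have hσ0 : 0 ≤ σ := Finset.sum_nonneg fun m _ => by positivity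
    have h3 : 2 * H0 * σ / ((p : ℝ) + 1) ≤ 2 * H0 * σ * (2 * K / N0) := by
      rw [div_eq_mul_inv]
      refine mul_le_mul_of_nonneg_left ?_ (by positivity)
      rw [inv_le_comm₀ (by positivity) (by positivity)]
      refine le_trans (le_of_eq ?_) hpT
      rw [inv_div]
    have h4 : (262272 * 8192 * (3 + 2 + 32 * S.A) ^ 3 / S.δ ^ 2 : ℝ) =
        K0 / ((1 / 2) ^ (ν + 1)) ^ 2 := rfl
    rw [h4]
    calc K0 / ((1 / 2) ^ (ν + 1)) ^ 2 * (2 * H0 * σ / ((p : ℝ) + 1))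
        ≤ K0 / ((1 / 2) ^ (ν + 1)) ^ 2 * (2 * H0 * σ * (2 * K / N0)) := by
          refine mul_le_mul_of_nonneg_left h3 ?_
          have := K0_pos; positivity
      _ = _ := by ring
  · intro z P hP
    have hA' : ∀ i, ∀ j, ∀ z' ∈ F.E i j, |u z' - F.s i| ≤ A * 2 ^ j := fun i j z' hz' =>
      hok.slope i j z' hz'
    have hTop' : ∀ i, ∀ j, ∀ z' ∈ F.E i j, ∃ m, Ab u M R z' j m := fun i j z' hz' =>
      hTop j z' (hok.sub i j hz')
    have hc := fun i => cand (Y := 2 * H0) (z := z) (c0 := 1 / 2) (M := M) (R := R)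
      (by norm_num) (by linarith) (by linarith) (hA' i) (hTop' i)
    choose g hg1 hg2 using hc
    have hcard : ∀ i ∈ P, 2 * p + 1 ≤ (g i).card := by
      intro i hi
      refine hp1.trans ?_
      have h1 := hP i hi
      have h2 : (N0 : ℝ) ≤ K * (g i).card := le_trans (by exact_mod_cast h1) (hg2 i)
      rw [hT]
      refine Nat.ceil_le.2 ?_
      rw [div_le_iff₀ hK0]
      linarith
    have key := hΦc z (κ := {i // i ∈ P}) (fun i => g i) (fun a => hcard a a.2) ?_ ?_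
    · rw [Fintype.card_coe] at key
      have : (P.card : ℝ≥0∞) = ENNReal.ofReal (P.card : ℝ) := by simp
      rw [this]
      exact ENNReal.ofReal_le_ofReal key
    · intro a t ht
      have hrel := hg1 a t ht
      constructor
      · obtain ⟨x, hx1, hx2⟩ := rel_x (by norm_num) hrel
        refine H597.mem_J3 (x := x) ((q_eq_D _ _ _).1 hx1) ?_
        rw [abs_sub_comm]
        refine hx2.trans ?_
        show 1 / 2 * (2 : ℝ)⁻¹ ^ M.j t ≤ (2 : ℝ)⁻¹ ^ M.j t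
        have : (0 : ℝ) < (2 : ℝ)⁻¹ ^ M.j t := by positivity
        linarith
      · have h1 := rel_off (hA' a) hrel
        show |z.2 - ((M.y t - M.s t * M.x t) + M.s t * z.1)| ≤ 3 * H0
        rw [← line_eq]
        linarith
    · intro a a' haa t ht t' ht' j0 h1
      have hne : (a : F.ι) ≠ a' := fun h => haa (Subtype.ext h)
      have hPP := pp_of_sepP (Y := 2 * H0) hok hsep (c0 := 1 / 2) (by norm_num) (by norm_num)
        (by linarith) (by linarith) z hne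
      exact rel_sep S rfl rfl (by linarith) (by linarith) hQ1 (hA' a) (hA' a') hPP
        (hg1 a t ht) (hg1 a' t' ht') j0 h1

/-- **(ARC-1)** -/
theorem stCount : StCount := by
  obtain ⟨C0, hC0, hFD⟩ := H724.stFD2 4
  -- the constant
  obtain ⟨C, hC⟩ : ∃ C : ℕ, 256 + 100 * C0 + K0 * (416 * C0) ≤ C := exists_nat_ge _
  have hK0 := K0_pos
  have hC1 : (256 : ℝ) ≤ C := by nlinarith
  have hC2 : 100 * C0 ≤ C := by nlinarith
  have hC3 : K0 * (416 * C0) ≤ C := by nlinarith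
  refine ⟨C, by exact_mod_cast (show (1 : ℝ) ≤ C by linarith), ?_⟩
  intro u ε E0 n ν F A w Q H0 N0 hD
  have h2ν : (1 : ℝ) ≤ 2 ^ ν := one_le_pow₀ (by norm_num)
  have hA1 := hD.A1
  have hS1 : (1 : ℝ) ≤ 2 ^ (ν + 1) := one_le_pow₀ (by norm_num)
  obtain ⟨κ, hκ, M, hM1, _, hM3, _, hM5⟩ := hFD u hD.field E0 hD.E0m hD.E0b n ν (2 ^ (ν + 1)) 1
    le_rfl hS1 (le_self_pow₀ hS1 (by norm_num))
  set R : ℝ := C0 * (2 ^ (ν + 1) + 1) with hR
  have hRle : R ≤ 3 * C0 * 2 ^ ν := by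
    rw [hR, pow_succ]; nlinarith
  have hR1 : 1 ≤ R := by rw [hR]; nlinarith
  have hC0R : C0 * 2 ^ (ν + 1) ≤ R := by rw [hR]; nlinarith
  have hTop : ∀ j, ∀ z ∈ Pd u E0 4 n ν j, ∃ m, Ab u M R z j m := by
    intro j z hz
    obtain ⟨m, h1, h2, h3, h4⟩ := hM5 j z hz
    refine ⟨m, h1, h2, h3.trans ?_, h4⟩
    gcongr
  have hA2 : 1 ≤ A * 2 ^ ν := one_le_mul_of_one_le_of_one_le hA1 h2ν
  have hAle : A ≤ A * 2 ^ ν := le_mul_of_one_le_right (by linarith) h2ν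
  have h2le : (2 : ℝ) ^ ν ≤ A * 2 ^ ν := le_mul_of_one_le_left (by positivity) hA1
  have hRle' : R ≤ 3 * C0 * (A * 2 ^ ν) := by
    refine hRle.trans ?_
    gcongr
  have hH0 : C * (A * 2 ^ ν) ≤ H0 := by have := hD.H0A; linarith
  have hH0' : 100 * C0 * (A * 2 ^ ν) ≤ H0 := by
    refine le_trans ?_ hH0
    gcongr
  have hC0A : (A * 2 ^ ν) ≤ C0 * (A * 2 ^ ν) := le_mul_of_one_le_left (by linarith) hC0
  have hH1 : 1 ≤ H0 := by nlinarith
  have hQH : C * (A * 2 ^ ν) * H0 ≤ Q := by have := hD.QH0; linarith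
  have hQ : 256 * H0 ≤ Q := by
    refine le_trans ?_ hQH
    gcongr
    nlinarith
  have hε : ε ≤ 1 / 256 := by
    have h1 := hD.ε1
    have h2 := hD.ε0
    nlinarith
  have hum : Measurable u := hD.field.1
  obtain ⟨Φ, h1, h2, h3⟩ := count_aux (κ := κ) hum hD.ε0 hε hD.lip hD.E0m hM3 hR1 hA1 hTop hD.ok
    hD.sep hH1 (by linarith) (by linarith) (by linarith) hD.N01
  refine ⟨Φ, h1, h2.trans ?_, h3⟩
  have hN' : (0 : ℝ) < N0 := by exact_mod_cast hD.N01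
  calc ENNReal.ofReal (K0 / ((1 / 2) ^ (ν + 1)) ^ 2 * (2 * H0) *
        (2 * (2 * (R + (R + A) * (1 / 2)) + 3) / N0)) * ENNReal.ofReal (∑ m, (1 / 2) ^ M.j m)
      ≤ ENNReal.ofReal (K0 / ((1 / 2) ^ (ν + 1)) ^ 2 * (2 * H0) *
        (2 * (2 * (R + (R + A) * (1 / 2)) + 3) / N0)) *
          (ENNReal.ofReal (2 ^ (ν + 1)) * volume E0) := by gcongr
    _ = ENNReal.ofReal (K0 / ((1 / 2) ^ (ν + 1)) ^ 2 * (2 * H0) *
        (2 * (2 * (R + (R + A) * (1 / 2)) + 3) / N0) * 2 ^ (ν + 1)) * volume E0 := by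
        rw [← mul_assoc, ← ENNReal.ofReal_mul (by positivity)]
    _ ≤ _ := by
        refine mul_le_mul_left (ENNReal.ofReal_le_ofReal ?_) _
        have e1 : K0 / ((1 / 2) ^ (ν + 1)) ^ 2 * (2 * H0) *
            (2 * (2 * (R + (R + A) * (1 / 2)) + 3) / N0) * 2 ^ (ν + 1) =
            K0 * (32 * (2 ^ ν) ^ 3 * (2 * (R + (R + A) * (1 / 2)) + 3)) * (H0 / N0) := by
          rw [one_div, inv_pow, inv_pow, div_inv_eq_mul, pow_succ]
          ring
        rw [e1]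
        refine mul_le_mul_of_nonneg_right ?_ (by positivity)
        have e2 : 2 * (R + (R + A) * (1 / 2)) + 3 ≤ 13 * C0 * (A * 2 ^ ν) := by nlinarith
        have e3 : (2 : ℝ) ^ ν ≤ A * 2 ^ ν := h2le
        have e4 : (A * 2 ^ ν) ^ 4 ≤ (A * 2 ^ ν) ^ C :=
          pow_le_pow_right₀ hA2 (by exact_mod_cast (show (4 : ℝ) ≤ C by linarith))
        calc K0 * (32 * (2 ^ ν) ^ 3 * (2 * (R + (R + A) * (1 / 2)) + 3))
            ≤ K0 * (32 * (A * 2 ^ ν) ^ 3 * (13 * C0 * (A * 2 ^ ν))) := by gcongr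
          _ = K0 * (416 * C0) * (A * 2 ^ ν) ^ 4 := by ring
          _ ≤ C * (A * 2 ^ ν) ^ C := by gcongr

end Vale.Agent.P112.H919
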