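import Vale.Agent.P112.H22.Cand
import Vale.Agent.P112.H597.Sparse3

/-!
# The counting function, general form

Any family of trees `(s i, E i)` with tops above all pairs, `N0 : ℝ`, window tolerances `c0`, `Y`,
separation `PP` of the pairs seen from one point as a hypothesis.
-/

open MeasureTheory Set
open scoped ENNReal

noncomputable section

namespace Vale.Agent.P112.H919

open Vale.Agent.P112.T Vale.Agent.P112.F30 Vale.Agent.P112.H310
open Vale.Agent.P112.H295 Vale.Agent.P112.H22.TopSys Vale.Agent.P112.H22.Cand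

/-- the counting function, general form -/
theorem count_gen {u : ℝ × ℝ → ℝ} (hu : Measurable u) {ε : ℝ} (hε0 : 0 ≤ ε) (hε1 : ε ≤ 1 / 256)
    (hLip : ∀ x y y', |u (x, y) - u (x, y')| ≤ ε * |y - y'|) {E0 : Set (ℝ × ℝ)}
    (hE : MeasurableSet E0) {ν : ℕ} {κ : Type} [Fintype κ] {M : Tops κ}
    (hM : HasTile u E0 ν M) {R A Q c0 Y B w N0 : ℝ} (hR : 0 ≤ R) (hA : 0 ≤ A) (hw : 1 ≤ w)
    (hc0 : 0 ≤ c0) (hc1 : c0 ≤ 1) (hB : 0 ≤ B) (hY : Y + (R + (R + A) * c0) ≤ B * w)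
    (hQ : 4 * (5 * w) + 2 * (R + A) < Q) (hN : 0 < N0)
    {ι : Type} {s : ι → ℝ} {E : ι → ℕ → Set (ℝ × ℝ)}
    (hA' : ∀ i j, ∀ z' ∈ E i j, |u z' - s i| ≤ A * 2 ^ j)
    (hTop : ∀ i j, ∀ z' ∈ E i j, ∃ m, Ab u M R z' j m) :
    ∃ Φ : ℝ × ℝ → ℝ≥0∞, Measurable Φ ∧
      ∫⁻ z, Φ z ^ 2 ≤ ENNReal.ofReal (262272 * 8192 * (B + 2 + 32 * 5) ^ 3 /
        ((1 / 2) ^ (ν + 1)) ^ 2 * (2 * w) * (2 * (2 * (R + (R + A) * c0) + 3) / N0)) *
          ENNReal.ofReal (∑ m, (1 / 2) ^ M.j m) ∧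
      ∀ z, ∀ P : Finset ι, (∀ i ∈ P, N0 ≤ ((AO (E i) (s i) c0 Y z).ncard : ℝ)) →
        (∀ i ∈ P, ∀ i' ∈ P, i ≠ i' → PP (E i) (E i') (s i) (s i') c0 Y Q z) →
        (P.card : ℝ≥0∞) ≤ Φ z := by
  classical
  set K : ℝ := 2 * (R + (R + A) * c0) + 3 with hK
  have hRA : 0 ≤ (R + A) * c0 := by positivity
  have hK0 : 0 < K := by rw [hK]; linarith
  set T : ℕ := ⌈N0 / K⌉₊ with hT
  have hT1 : 1 ≤ T := Nat.one_le_ceil_iff.2 (by positivity)
  have hTle : N0 / K ≤ T := Nat.le_ceil _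
  set p : ℕ := (T - 1) / 2 with hp
  have hp1 : 2 * p + 1 ≤ T := by omega
  have hp2 : T ≤ 2 * (p + 1) := by omega
  have hpT : N0 / (2 * K) ≤ (p : ℝ) + 1 := by
    have h1 : (T : ℝ) ≤ 2 * ((p : ℝ) + 1) := by exact_mod_cast hp2
    have h2 : N0 / (2 * K) = N0 / K / 2 := by field_simp
    rw [h2]; linarith
  set S := topSys u hu hε0 (by linarith) hLip hE M hM hw with hS
  obtain ⟨Φ, hΦm, hΦ0, hΦi, hΦI, hΦc⟩ := H597.sparse3 S (show S.ε ≤ 1 / 256 from hε1) hB p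
  refine ⟨fun z => ENNReal.ofReal (Φ z), hΦm.ennreal_ofReal, ?_, ?_⟩
  · have h1 : ∫⁻ z, ENNReal.ofReal (Φ z) ^ 2 = ENNReal.ofReal (∫ z, Φ z ^ 2) := by
      rw [ofReal_integral_eq_lintegral_ofReal hΦi
        (Filter.Eventually.of_forall fun z => sq_nonneg _)]
      refine lintegral_congr fun z => ?_
      rw [ENNReal.ofReal_pow (hΦ0 z)]
    rw [h1, ← ENNReal.ofReal_mul (by positivity)]
    refine ENNReal.ofReal_le_ofReal (hΦI.trans ?_)
    have hR' : ∑ m, volume.real (S.R m) = 2 * w * ∑ m, (1 / 2 : ℝ) ^ M.j m := by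
      rw [Finset.mul_sum]
      refine Finset.sum_congr rfl fun m _ => ?_
      rw [S.vr_R m]
      unfold SysV.l
      show (2 : ℝ)⁻¹ ^ M.j m * (2 * w) = _
      rw [one_div]; ring
    rw [hR']
    set σ := ∑ m, (1 / 2 : ℝ) ^ M.j m with hσ
    have hσ0 : 0 ≤ σ := Finset.sum_nonneg fun m _ => by positivity
    have h3 : 2 * w * σ / ((p : ℝ) + 1) ≤ 2 * w * σ * (2 * K / N0) := by
      rw [div_eq_mul_inv]
      refine mul_le_mul_of_nonneg_left ?_ (by positivity)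
      rw [inv_le_comm₀ (by positivity) (by positivity)]
      refine le_trans (le_of_eq ?_) hpT
      rw [inv_div]
    have h4 : (262272 * 8192 * (B + 2 + 32 * S.A) ^ 3 / S.δ ^ 2 : ℝ) =
        262272 * 8192 * (B + 2 + 32 * 5) ^ 3 / ((1 / 2) ^ (ν + 1)) ^ 2 := rfl
    rw [h4]
    calc 262272 * 8192 * (B + 2 + 32 * 5) ^ 3 / ((1 / 2) ^ (ν + 1)) ^ 2 *
          (2 * w * σ / ((p : ℝ) + 1))
        ≤ 262272 * 8192 * (B + 2 + 32 * 5) ^ 3 / ((1 / 2) ^ (ν + 1)) ^ 2 *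
          (2 * w * σ * (2 * K / N0)) := by
          refine mul_le_mul_of_nonneg_left h3 ?_
          positivity
      _ = _ := by ring
  · intro z P hP hPP
    have hc := fun i => cand (Y := Y) (z := z) (c0 := c0) (M := M) (R := R)
      hc0 hA hR (hA' i) (hTop i)
    choose g hg1 hg2 using hc
    have hcard : ∀ i ∈ P, 2 * p + 1 ≤ (g i).card := by
      intro i hi
      refine hp1.trans ?_
      have h2 : N0 ≤ K * (g i).card := le_trans (hP i hi) (hg2 i)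
      rw [hT]
      refine Nat.ceil_le.2 ?_
      rw [div_le_iff₀ hK0]
      linarith
    have key := hΦc z (κ := {i // i ∈ P}) (fun i => g i) (fun a => hcard a a.2) ?_ ?_
    · rw [Fintype.card_coe] at key
      have : (P.card : ℝ≥0∞) = ENNReal.ofReal (P.card : ℝ) := by simp
      rw [this]
      exact ENNReal.ofReal_le_ofReal key
    · intro a t ht
      have hrel := hg1 a t ht
      constructor
      · obtain ⟨x, hx1, hx2⟩ := rel_x hc0 hrel
        refine H597.mem_J3 (x := x) ((q_eq_D _ _ _).1 hx1) ?_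
        rw [abs_sub_comm]
        refine hx2.trans ?_
        exact mul_le_of_le_one_left (by positivity) hc1
      · have h1 := rel_off (hA' a) hrel
        show |z.2 - ((M.y t - M.s t * M.x t) + M.s t * z.1)| ≤ B * w
        rw [← line_eq]
        linarith
    · intro a a' haa t ht t' ht' j0 h1
      have hne : (a : ι) ≠ a' := fun h => haa (Subtype.ext h)
      exact rel_sep S rfl rfl hR hA hQ (hA' a) (hA' a') (hPP a a.2 a' a'.2 hne)
        (hg1 a t ht) (hg1 a' t' ht') j0 h1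

end Vale.Agent.P112.H919
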